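import Vale.Agent.P167.H640.ND.Cls
import Vale.Agent.P167.BR.Gdl

/-!
# P167, general `q`, block Q-ND: small pieces near the zones, locality

Proofs of `S_small`, `S_big`, `S_loc`.
-/

namespace Vale.Agent.P167.H135.ND

open Finset Vale.Agent.P167 Vale.Agent.P167.BR Vale.Agent.P167.FK Vale.Agent.P167.H632
open Vale.Agent.P167.QX (lo hi exists_xy lo_xy hi_xy)
open Vale.Agent.P167.QB (Ard sep_ard ard_lp ard_xy flat_side inn_xy)
open Vale.Agent.P167.E6 (IsPolygon Encloses dir face)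
open Vale.Agent.P167.E2 Relation
open Vale.Agent.P167.H436.ND Vale.Agent.P167.H640.ND

variable {ω : Cfg} {D Z : Finset (ℤ × ℤ)} {A : Finset Ed} {b : ℤ × ℤ} {r s R : ℤ}

/-- **(LOC).** -/
theorem s_loc : H436.ND.S_loc := by
  intro D Z ω ω' _ h A hA hV
  refine mem_pcs_congr hA fun e he _ => h _ fun hz => hV ⟨e, he, mem_eds.2 (Or.inl hz)⟩

/-- A strand which stays near a point of the window, up to distance `d`: its ends are sides of the
flat piece. -/
theorem ends {n l : ℕ} {q : ZMod n → ℤ × ℤ} (hw : Win q D l R) {d : ℤ} (hA : A ∈ pcs ω D)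
    (hl : ¬ IsLp D A) {v : ℤ × ℤ} (h1 : (q l).1 - R + (d + 2) ≤ v.1) (h2 : v.1 < (q l).1 + R - (d + 2))
    (h3 : (q l).2 - R + (d + 2) ≤ v.2) (h4 : v.2 < (q l).2 + R - (d + 2)) (hR : 1 ≤ R)
    (hd : ∀ e ∈ A, nm (hdv e - v) ≤ d) :
    ∃ x y : ℕ, lo q A = min x y ∧ hi q A = max x y ∧
      (∃ e ∈ A, (hdv e).1 = (q l).1 + ((x : ℤ) - l) ∧ ((hdv e).2 = (q l).2 ∨ (hdv e).2 = (q l).2 - 1)) ∧
      (∃ e ∈ A, (hdv e).1 = (q l).1 + ((y : ℤ) - l) ∧
        ((hdv e).2 = (q l).2 ∨ (hdv e).2 = (q l).2 - 1)) := by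
  obtain ⟨hq, hD, hF, hln, h0⟩ := hw
  have hb : ∀ e ∈ A, |(hdv e).1 - v.1| ≤ d ∧ |(hdv e).2 - v.2| ≤ d := by
    intro e he
    have h := hd e he
    rw [nm, max_le_iff] at h
    exact h
  have hdD : ∀ e ∈ A, (hdv e ∈ hbox (q l) R ∨ (hdv e).2 < (q l).2) ∧
      (tlv e ∈ hbox (q l) R ∨ (tlv e).2 < (q l).2) := by
    intro e he
    obtain ⟨g1, g2⟩ := hb e he
    rw [abs_le] at g1 g2
    have h5 := adj_sq e
    rw [mem_hbox, mem_hbox]
    omega
  have hE : ∀ e ∈ A, e ∈ eds (hbox (q l) R) := by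
    intro e he
    obtain ⟨g1, g2⟩ := hb e he
    rw [abs_le] at g1 g2
    have h5 := adj_sq e
    have h6 := mem_eds.1 (subset_eds hA he)
    have h7 : hdv e ∈ D ↔ (q l).2 ≤ (hdv e).2 :=
      hF _ (by omega) (by omega) (by omega) (by omega)
    have h8 : tlv e ∈ D ↔ (q l).2 ≤ (tlv e).2 :=
      hF _ (by omega) (by omega) (by omega) (by omega)
    rw [h7, h8] at h6
    rw [mem_eds, mem_hbox, mem_hbox]
    omega
  obtain ⟨x, y, hxy, bx1, bx2, by1, by2, -⟩ := inn_xy hq hD hF hR hln h0 hA hE hdD hl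
  obtain ⟨fx1, fx2⟩ := flat_side hq hD hF hR hln h0 bx1 bx2
  obtain ⟨fy1, fy2⟩ := flat_side hq hD hF hR hln h0 by1 by2
  have hx := hxy.2.2.2.2.1
  have hy := hxy.2.2.2.2.2
  have cx := ce_even hx 0
  have cy := ce_odd hy 0
  rw [← fx2, f4_0m, face0, face3] at cx
  rw [← fy2, f4_0m, face0, face3] at cy
  refine ⟨x, y, lo_xy hq hD hA hxy, hi_xy hq hD hA hxy, ⟨_, hxy.2.2.1, ?_, ?_⟩,
    ⟨_, hxy.2.2.2.1, ?_, ?_⟩⟩
  · rw [cx.2.2.1, fx1]
  · left; rw [cx.2.2.1, fx1]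
  · rw [cy.2.2.2, fy1]
  · right; rw [cy.2.2.2, fy1]

/-- **(CLS-f).** -/
theorem s_big : H436.ND.S_big := by
  intro n q D l R hw ρ σ ω h1 h2 h3 A hA hlo hhi hV
  by_contra hcon
  push Not at hcon
  obtain ⟨e0, he0, hz⟩ := hV
  rw [mem_eds, mem_Zg, mem_Zg] at hz
  have hadj := adj_sq e0
  have hnl : ¬ IsLp D A := fun h => ard_lp hw.poly hw.enc hA h (w := l) ⟨hlo, hhi⟩
  have hd : ∀ e ∈ A, nm (hdv e - hdv e0) ≤ ρ - 3 := fun e he => by have := hcon e he e0 he0; omega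
  obtain ⟨x, y, hl1, hh1, ⟨e1, he1, a1, a2⟩, ⟨e2, he2, b1, b2⟩⟩ :=
    ends hw (d := ρ - 3) hA hnl (v := hdv e0) (by omega) (by omega) (by omega) (by omega) (by omega) hd
  have g1 := hd e1 he1
  have g2 := hd e2 he2
  rw [nm, max_le_iff, abs_le, abs_le] at g1 g2
  simp only [Prod.fst_sub, Prod.snd_sub] at g1 g2
  omega

/-- **(CLS-b).** -/
theorem s_small : H436.ND.S_small := by
  intro n q D l R hw m a ha ω A hA hex
  obtain ⟨i, ⟨e0, he0, hz⟩, hsm⟩ := hex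
  by_cases hlp : IsLp D A
  · exact ⟨ard_lp hw.poly hw.enc hA hlp, fun h => absurd hlp h⟩
  rw [Zr_eq, mem_eds, mem_Zg, mem_Zg] at hz
  have hadj := adj_sq e0
  have hai := ha.pos i
  have hti := ha.top i
  -- the diameter
  have hd : ∀ e ∈ A, ∀ e' ∈ A, 400 * nm (hdv e - hdv e') < a i := by
    intro e he e' he'
    have h := hsm _ (Finset.mem_image_of_mem _ he) _ (Finset.mem_image_of_mem _ he')
    rw [kp] at h
    have h' : (((400 * nm (hdv e - hdv e') : ℤ)) : ℝ) < ((a i : ℤ) : ℝ) := by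
      push_cast
      linarith
    exact_mod_cast h'
  obtain ⟨d, hd1, hd2⟩ : ∃ d : ℤ, 400 * d ≤ a i ∧ a i < 400 * (d + 1) :=
    ⟨a i / 400, by omega, by omega⟩
  have hd0 : ∀ e ∈ A, nm (hdv e - hdv e0) ≤ d := fun e he => by have := hd e he e0 he0; omega
  obtain ⟨x, y, hl1, hh1, ⟨e1, he1, a1, a2⟩, ⟨e2, he2, b1, b2⟩⟩ :=
    ends hw (d := d) hA hlp (v := hdv e0) (by omega) (by omega) (by omega) (by omega) (by omega) hd0
  have g1 := hd0 e1 he1
  have g2 := hd0 e2 he2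
  rw [nm, max_le_iff, abs_le, abs_le] at g1 g2
  simp only [Prod.fst_sub, Prod.snd_sub] at g1 g2
  have hna : ¬ Ard q l A := by
    unfold Ard
    omega
  refine ⟨hna, fun _ j z hz' hsep => ?_⟩
  -- positions of the edges
  have hpos : ∀ e ∈ A, ((hdv e).2 ≤ (q l).2 + d ∧
      ((hdv e).1 ≤ (q l).1 - a i + (2 * d + 2) ∨ (q l).1 + a i - (2 * d + 2) ≤ (hdv e).1)) := by
    intro e he
    have g3 := hd e he e0 he0
    have g4 := hd e he e1 he1
    have g3' : nm (hdv e - hdv e0) ≤ d := by omega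
    have g4' : nm (hdv e - hdv e1) ≤ d := by omega
    rw [nm, max_le_iff, abs_le, abs_le] at g3' g4'
    simp only [Prod.fst_sub, Prod.snd_sub] at g3' g4'
    omega
  obtain ⟨hq, hD, hF, hln, h0⟩ := hw
  -- the inner half box
  have hr1 : (1 : ℤ) ≤ a i / 2 := by omega
  have hV1 : ¬ Vz (hbox (q l) (a i / 2)) A := by
    rintro ⟨e, he, h⟩
    rw [mem_eds, mem_hbox, mem_hbox] at h
    have h5 := hpos e he
    have h6 := adj_sq e
    omega
  have hsub1 : hbox (q l) (a i / 2) ⊆ D := fun _ hv => hbox_sub (hF.mono (by omega)) hv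
  have hs1 : ∀ w ∈ sites (hbox (q l) (a i / 2)), ¬ Sep D A w (q 0) := by
    intro w hw' h
    apply hna
    rw [← sep_ard hq hD hA hln.le]
    refine (sep_zone hsub1 (econ_hbox hr1) hV1 hw' ?_).1 h
    rw [mem_sites_hbox hr1]
    omega
  -- the upper part
  obtain ⟨k1, k2, k3, k4⟩ := hz'
  have haj := ha.pos j
  have htj := ha.top j
  have hcase : 4 * a j ≤ a i ∨ a i ≤ a j := by
    rcases lt_trichotomy j i with h | h | h
    · exact Or.inl (ha.step j i h)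
    · right; rw [h]
    · right
      have := ha.step i j h
      omega
  rcases hcase with hc | hc
  · refine hs1 z ?_ hsep
    rw [mem_sites_hbox hr1]
    omega
  · have hR1 : (1 : ℤ) ≤ R - a i / 4 := by omega
    have hV2 : ¬ Vz (hbox ((q l).1, (q l).2 + a i / 4) (R - a i / 4)) A := by
      rintro ⟨e, he, h⟩
      rw [mem_eds, mem_hbox, mem_hbox] at h
      have h5 := hpos e he
      have h6 := adj_sq e
      simp only at h
      omega
    have hsub2 : hbox ((q l).1, (q l).2 + a i / 4) (R - a i / 4) ⊆ D := by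
      intro v hv
      refine hbox_sub hF ?_
      rw [mem_hbox] at hv ⊢
      simp only at hv
      omega
    refine hs1 ((q l).1, (q l).2 + a i / 4) ?_
      ((sep_zone hsub2 (econ_hbox hR1) hV2 (s := z) ?_ ?_).1 hsep)
    · rw [mem_sites_hbox hr1]
      simp only
      omega
    · rw [mem_sites_hbox hR1]
      simp only
      omega
    · rw [mem_sites_hbox hR1]
      simp only
      omega

end Vale.Agent.P167.H135.ND
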